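import Vale.Agent.P060.Defs

open Finset Classical

namespace Vale.Agent.P060

variable {V : Type} [Fintype V] {G : SimpleGraph V}

def bad (G : SimpleGraph V) (σ π : V → V) (x y : V) : Prop :=
  (y = σ x ∧ y ≠ x ∧ ¬ G.Adj (π x) (π y)) ∨ (y ≠ x ∧ y ≠ σ x ∧ ¬ G.Adj (π x) (π y) ∧
    ¬ G.Adj (π x) (π (σ y)) ∧ ¬ G.Adj (π (σ x)) (π y) ∧ ¬ G.Adj (π (σ x)) (π (σ y)))

omit [Fintype V] in
lemma bad_symm {σ π : V → V} (hσ : Function.Involutive σ) {x y : V} (h : bad G σ π x y) :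
    bad G σ π y x := by
  rcases h with ⟨h1, h2, h3⟩ | ⟨h1, h2, h3, h4, h5, h6⟩
  · exact Or.inl ⟨by rw [h1, hσ], h2.symm, fun h => h3 h.symm⟩
  · exact Or.inr ⟨h1.symm, fun h => h2 (by rw [h, hσ]), fun h => h3 h.symm, fun h => h5 h.symm,
      fun h => h4 h.symm, fun h => h6 h.symm⟩

lemma two_card {E : ℕ} (hE : ∀ v, (univ.filter fun w => ¬ G.Adj v w).card ≤ E) (a : V) :
    (univ.filter fun w => ∃ y, ¬ G.Adj a y ∧ ¬ G.Adj y w).card ≤ E * E := by
  refine le_trans (card_le_card (t := (univ.filter fun y => ¬ G.Adj a y).biUnion fun y =>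
    univ.filter fun w => ¬ G.Adj y w) fun w hw => ?_)
    ((card_biUnion_le_card_mul _ _ E fun y _ => hE y).trans (Nat.mul_le_mul_right _ (hE a)))
  obtain ⟨y, h1, h2⟩ := (mem_filter.1 hw).2
  exact mem_biUnion.2 ⟨y, by simpa using h1, by simpa using h2⟩

omit [Fintype V] in
lemma pre_card (f : V → V) (hf : Function.Injective f) {s t : Finset V} {c : ℕ}
    (ht : t.card ≤ c) (h : ∀ z ∈ s, f z ∈ t) : s.card ≤ c :=
  (card_le_card_of_injOn f (fun z hz => h z hz) hf.injOn).trans ht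

lemma pick {E : ℕ} (hE : ∀ v, (univ.filter fun w => ¬ G.Adj v w).card ≤ E) {σ : V → V}
    (hσ : Function.Involutive σ) (hc : 2 * (E * E) + E < (univ.filter fun v => σ v ≠ v).card)
    (π : Equiv.Perm V) (x : V) : ∃ z, σ z ≠ z ∧ ¬ (∃ y, ¬ G.Adj (π x) y ∧ ¬ G.Adj y (π z)) ∧
      ¬ (∃ y, ¬ G.Adj (π (σ x)) y ∧ ¬ G.Adj y (π (σ z))) ∧ G.Adj (π x) (π (σ z)) := by
  by_contra h
  have i1 : (univ.filter fun z => ∃ y, ¬ G.Adj (π x) y ∧ ¬ G.Adj y (π z)).card ≤ E * E :=
    pre_card π π.injective (two_card hE (π x)) fun z hz => by simpa using hz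
  have i2 : (univ.filter fun z => ∃ y, ¬ G.Adj (π (σ x)) y ∧ ¬ G.Adj y (π (σ z))).card ≤ E * E :=
    pre_card (fun z => π (σ z)) (π.injective.comp hσ.injective) (two_card hE (π (σ x)))
      fun z hz => by simpa using hz
  have i3 : (univ.filter fun z => ¬ G.Adj (π x) (π (σ z))).card ≤ E :=
    pre_card (fun z => π (σ z)) (π.injective.comp hσ.injective) (hE (π x))
      fun z hz => by simpa using hz
  have i4 : (univ.filter fun v => σ v ≠ v) ⊆
      (univ.filter fun z => ∃ y, ¬ G.Adj (π x) y ∧ ¬ G.Adj y (π z)) ∪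
      (univ.filter fun z => ∃ y, ¬ G.Adj (π (σ x)) y ∧ ¬ G.Adj y (π (σ z))) ∪
      (univ.filter fun z => ¬ G.Adj (π x) (π (σ z))) := fun z hz => by
    simp only [mem_union, mem_filter, mem_univ, true_and] at hz ⊢
    by_contra h'
    exact h ⟨z, hz, fun k => h' (Or.inl (Or.inl k)), fun k => h' (Or.inl (Or.inr k)),
      by_contra fun k => h' (Or.inr k)⟩
  have i5 := (card_le_card i4).trans
    ((card_union_le _ _).trans (Nat.add_le_add_right (card_union_le _ _) _))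
  omega

lemma switch {E : ℕ} (hE : ∀ v, (univ.filter fun w => ¬ G.Adj v w).card ≤ E) {σ : V → V}
    (hσ : Function.Involutive σ) (hc : 2 * (E * E) + E < (univ.filter fun v => σ v ≠ v).card)
    (π : Equiv.Perm V) {x : V} (hx : σ x ≠ x) :
    ∃ z, σ z ≠ z ∧ ∀ a b, bad G σ (π * Equiv.swap (σ x) z : Equiv.Perm V) a b →
      bad G σ π a b ∧ a ≠ x := by
  obtain ⟨z, hz, h1, h2, h3⟩ := pick hE hσ hc π x
  have k1 : ∀ y, G.Adj (π x) y ∨ G.Adj (π z) y := fun y => by
    by_contra h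
    exact h1 ⟨y, fun k => h (Or.inl k), fun k => h (Or.inr k.symm)⟩
  have k2 : ∀ y, G.Adj (π (σ x)) y ∨ G.Adj (π (σ z)) y := fun y => by
    by_contra h
    exact h2 ⟨y, fun k => h (Or.inl k), fun k => h (Or.inr k.symm)⟩
  have a1 : G.Adj (π z) (π x) := (k1 _).resolve_left G.irrefl
  have a2 : G.Adj (π (σ z)) (π (σ x)) := (k2 _).resolve_left G.irrefl
  have n1 : x ≠ z := fun h => a1.ne (by rw [h])
  have n2 : σ z ≠ σ x := fun h => a2.ne (by rw [h])
  have p1 : (π * Equiv.swap (σ x) z : Equiv.Perm V) x = π x := by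
    rw [Equiv.Perm.mul_apply, Equiv.swap_apply_of_ne_of_ne hx.symm n1]
  have p2 : (π * Equiv.swap (σ x) z : Equiv.Perm V) (σ x) = π z := by
    rw [Equiv.Perm.mul_apply, Equiv.swap_apply_left]
  have p3 : (π * Equiv.swap (σ x) z : Equiv.Perm V) z = π (σ x) := by
    rw [Equiv.Perm.mul_apply, Equiv.swap_apply_right]
  have p4 : (π * Equiv.swap (σ x) z : Equiv.Perm V) (σ z) = π (σ z) := by
    rw [Equiv.Perm.mul_apply, Equiv.swap_apply_of_ne_of_ne n2 hz]
  have key : ∀ a b, bad G σ (π * Equiv.swap (σ x) z : Equiv.Perm V) a b →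
      a ≠ x ∧ a ≠ σ x ∧ a ≠ z ∧ a ≠ σ z := by
    intro a b h
    refine ⟨?_, ?_, ?_, ?_⟩ <;> rintro rfl <;>
      rcases h with ⟨rfl, -, h⟩ | ⟨-, -, g1, -, g2, -⟩
    · exact h (by rw [p1, p2]; exact a1.symm)
    · rw [p1] at g1; rw [p2] at g2; exact (k1 _).elim g1 g2
    · exact h (by rw [hσ, p1, p2]; exact a1)
    · rw [p2] at g1; rw [hσ, p1] at g2; exact (k1 _).elim g2 g1
    · exact h (by rw [p3, p4]; exact a2.symm)
    · rw [p3] at g1; rw [p4] at g2; exact (k2 _).elim g1 g2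
    · exact h (by rw [hσ, p3, p4]; exact a2)
    · rw [p4] at g1; rw [hσ, p3] at g2; exact (k2 _).elim g2 g1
  refine ⟨z, hz, fun a b h => ⟨?_, (key a b h).1⟩⟩
  have q : ∀ c, (c ≠ x ∧ c ≠ σ x ∧ c ≠ z ∧ c ≠ σ z) →
      (π * Equiv.swap (σ x) z : Equiv.Perm V) c = π c ∧
      (π * Equiv.swap (σ x) z : Equiv.Perm V) (σ c) = π (σ c) := fun c hc => by
    rw [Equiv.Perm.mul_apply, Equiv.Perm.mul_apply, Equiv.swap_apply_of_ne_of_ne hc.2.1 hc.2.2.1,
      Equiv.swap_apply_of_ne_of_ne (fun h => hc.1 (hσ.injective h))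
        (fun h => hc.2.2.2 (by rw [← h, hσ]))]
    exact ⟨rfl, rfl⟩
  obtain ⟨u1, u2⟩ := q a (key a b h)
  obtain ⟨u3, u4⟩ := q b (key b a (bad_symm hσ h))
  unfold bad at h ⊢
  rwa [u1, u2, u3, u4] at h

lemma good {E : ℕ} (hE : ∀ v, (univ.filter fun w => ¬ G.Adj v w).card ≤ E) {σ : V → V}
    (hσ : Function.Involutive σ) (hc : 2 * (E * E) + E < (univ.filter fun v => σ v ≠ v).card)
    (hU : ∀ u v, σ u = u → σ v = v → u ≠ v → G.Adj u v) :
    ∃ π : Equiv.Perm V, ∀ a b, ¬ bad G σ π a b := by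
  obtain ⟨π, h1, h2⟩ := exists_min_image (univ.filter fun π : Equiv.Perm V => ∀ u, σ u = u → π u = u)
    (fun π => (univ.filter fun p : V × V => bad G σ π p.1 p.2).card) ⟨1, by simp⟩
  have h1' := (mem_filter.1 h1).2
  have key : ∀ x y, bad G σ π x y → σ x = x := by
    intro x y h
    by_contra hx
    obtain ⟨z, hz, k⟩ := switch hE hσ hc π hx
    refine absurd (h2 (π * Equiv.swap (σ x) z) (mem_filter.2 ⟨mem_univ _, fun u hu => ?_⟩))
      (not_le.2 (card_lt_card ⟨fun p hp => ?_, fun hs => ?_⟩))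
    · rw [Equiv.Perm.mul_apply, Equiv.swap_apply_of_ne_of_ne, h1' u hu]
      · rintro rfl
        exact hx (by rw [hσ] at hu; exact hu.symm)
      · rintro rfl
        exact hz hu
    · exact mem_filter.2 ⟨mem_univ _, (k _ _ (mem_filter.1 hp).2).1⟩
    · exact (k _ _ (mem_filter.1 (hs (mem_filter.2 ⟨mem_univ (x, y), h⟩))).2).2 rfl
  refine ⟨π, fun a b h => ?_⟩
  have ha := key a b h
  have hb := key b a (bad_symm hσ h)
  rcases h with ⟨k1, k2, -⟩ | ⟨k1, -, k2, -⟩
  · exact k2 (k1.trans ha)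
  · rw [h1' a ha, h1' b hb] at k2
    exact k2 (hU a b ha hb k1.symm)

lemma maxi {c : ℕ} {τ : V → V} (h1 : Function.Involutive τ) (h2 : ∀ v, ¬ G.Adj v (τ v))
    (h3 : c < (univ.filter fun v => τ v ≠ v).card) :
    ∃ σ : V → V, Function.Involutive σ ∧ (∀ v, ¬ G.Adj v (σ v)) ∧
      c < (univ.filter fun v => σ v ≠ v).card ∧
      ∀ u v, σ u = u → σ v = v → u ≠ v → G.Adj u v := by
  obtain ⟨σ, k1, k2⟩ := exists_max_image
    (univ.filter fun σ : V → V => Function.Involutive σ ∧ ∀ v, ¬ G.Adj v (σ v))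
    (fun σ => (univ.filter fun v => σ v ≠ v).card) ⟨τ, mem_filter.2 ⟨mem_univ _, h1, h2⟩⟩
  obtain ⟨k3, k4⟩ := (mem_filter.1 k1).2
  refine ⟨σ, k3, k4, h3.trans_le (k2 τ (mem_filter.2 ⟨mem_univ _, h1, h2⟩)),
    fun u v hu hv huv => ?_⟩
  by_contra hn
  have e : ∀ w, w ≠ u → w ≠ v → σ w ≠ u ∧ σ w ≠ v := fun w a b =>
    ⟨fun h => a (k3.injective (h.trans hu.symm)), fun h => b (k3.injective (h.trans hv.symm))⟩
  refine absurd (k2 (fun w => if w = u then v else if w = v then u else σ w)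
    (mem_filter.2 ⟨mem_univ _, fun w => ?_, fun w => ?_⟩))
    (not_le.2 (card_lt_card ⟨fun w hw => ?_, fun hs => ?_⟩))
  · by_cases a : w = u
    · simp [a, huv.symm]
    · by_cases b : w = v
      · simp [b, huv.symm]
      · simp [a, b, (e w a b).1, (e w a b).2, k3 w]
  · by_cases a : w = u
    · simpa [a] using hn
    · by_cases b : w = v
      · simpa [b, huv.symm] using fun h => hn (G.adj_symm h)
      · simpa [a, b] using k4 w
  · have hw' := (mem_filter.1 hw).2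
    have a : w ≠ u := fun h => hw' (by rw [h, hu])
    have b : w ≠ v := fun h => hw' (by rw [h, hv])
    simpa [a, b] using hw'
  · have := hs (mem_filter.2 ⟨mem_univ u, by simpa using huv.symm⟩)
    exact (mem_filter.1 this).2 hu

lemma final {σ : V → V} (hσ : Function.Involutive σ) (h2 : ∀ v, ¬ G.Adj v (σ v))
    (π : Equiv.Perm V) (hπ : ∀ a b, ¬ bad G σ π a b) : ∃ t, G.Colorable t ∧ HasMinor G t := by
  let S : Setoid V := ⟨fun x y => y = x ∨ y = σ x, ⟨fun _ => Or.inl rfl,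
    fun h => h.elim (fun h => Or.inl h.symm) fun h => Or.inr (by rw [h, hσ]),
    fun {x y z} h k => by
      rcases h with rfl | rfl
      · exact k
      · rcases k with rfl | rfl
        · exact Or.inr rfl
        · exact Or.inl (hσ x)⟩⟩
  let e := Fintype.equivFin (Quotient S)
  let r : Fin (Fintype.card (Quotient S)) → V := fun i => (e.symm i).out
  have hr : ∀ i j, i ≠ j → r j ≠ r i ∧ r j ≠ σ (r i) := fun i j hij => by
    have : ¬ (r j = r i ∨ r j = σ (r i)) := fun h => hij (e.symm.injective (by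
      rw [← Quotient.out_eq (e.symm i), ← Quotient.out_eq (e.symm j)]
      exact Quotient.sound h))
    exact ⟨fun h => this (Or.inl h), fun h => this (Or.inr h)⟩
  refine ⟨_, (SimpleGraph.Coloring.mk (fun v => Quotient.mk S v) fun {v w} h k => ?_).colorable,
    fun i => {π (r i), π (σ (r i))}, fun i => ⟨_, Or.inl rfl⟩, fun i => ?_, fun i j hij => ?_,
    fun i j hij => ?_⟩
  · rcases (Quotient.exact k : w = v ∨ w = σ v) with rfl | rfl
    · exact G.irrefl h
    · exact h2 v h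
  · refine (SimpleGraph.connected_iff_exists_forall_reachable _).2 ⟨⟨_, Or.inl rfl⟩, ?_⟩
    rintro ⟨w, rfl | rfl⟩
    · rfl
    · by_cases h : σ (r i) = r i
      · have e : (⟨π (r i), Or.inl rfl⟩ : ({π (r i), π (σ (r i))} : Set V)) =
            ⟨π (σ (r i)), Or.inr rfl⟩ := Subtype.ext (congrArg π h).symm
        exact e ▸ SimpleGraph.Reachable.refl _
      · refine SimpleGraph.Adj.reachable ?_
        by_contra k
        exact hπ _ _ (Or.inl ⟨rfl, h, k⟩)
  · obtain ⟨a, b⟩ := hr i j hij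
    rw [Set.disjoint_left]
    rintro _ (rfl | rfl) (k | k)
    · exact a (π.injective k).symm
    · exact b (by rw [π.injective k, hσ])
    · exact b (π.injective k).symm
    · exact a (hσ.injective (π.injective k)).symm
  · obtain ⟨a, b⟩ := hr i j hij
    by_contra k
    exact hπ _ _ (Or.inr ⟨a, b, fun h => k ⟨_, Or.inl rfl, _, Or.inl rfl, h⟩,
      fun h => k ⟨_, Or.inl rfl, _, Or.inr rfl, h⟩, fun h => k ⟨_, Or.inr rfl, _, Or.inl rfl, h⟩,
      fun h => k ⟨_, Or.inr rfl, _, Or.inr rfl, h⟩⟩)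

theorem main (D : ℕ) (hD : ∀ v, (Gᶜ.neighborSet v).ncard ≤ D) (M : Gᶜ.Subgraph)
    (hM : M.IsMatching) (hc : 2 * (D + 2) ^ 2 ≤ M.verts.ncard) :
    ∃ t, G.Colorable t ∧ HasMinor G t := by
  have hE : ∀ v, (univ.filter fun w => ¬ G.Adj v w).card ≤ D + 1 := fun v => by
    rw [← Set.ncard_coe_finset]
    refine le_trans (Set.ncard_le_ncard (t := insert v (Gᶜ.neighborSet v)) fun w hw => ?_)
      ((Set.ncard_insert_le _ _).trans (Nat.add_le_add_right (hD v) 1))
    by_cases h : w = v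
    · exact Or.inl h
    · exact Or.inr ⟨fun k => h k.symm, by simpa using hw⟩
  let τ : V → V := fun v => if h : v ∈ M.verts then (hM h).exists.choose else v
  have t1 : ∀ v ∈ M.verts, M.Adj v (τ v) := fun v h => by
    simp only [τ, dif_pos h]
    exact (hM h).exists.choose_spec
  have t2 : ∀ v ∉ M.verts, τ v = v := fun v h => dif_neg h
  obtain ⟨σ, s1, s2, s3, s4⟩ := maxi (G := G) (c := 2 * ((D + 1) * (D + 1)) + (D + 1)) (τ := τ)
    (fun v => by
      by_cases h : v ∈ M.verts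
      · exact (hM (t1 v h).snd_mem).unique (t1 _ (t1 v h).snd_mem) (t1 v h).symm
      · rw [t2 v h, t2 v h])
    (fun v => by
      by_cases h : v ∈ M.verts
      · exact (t1 v h).adj_sub.2
      · rw [t2 v h]; exact G.irrefl)
    (by
      rw [← Set.ncard_coe_finset]
      refine lt_of_lt_of_le (lt_of_lt_of_le (by nlinarith) hc)
        (Set.ncard_le_ncard fun v hv => ?_)
      simpa using (t1 v hv).adj_sub.1.symm)
  obtain ⟨π, hπ⟩ := good hE s1 s3 s4
  exact final s1 s2 π hπ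

end Vale.Agent.P060
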