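import Vale.Agent.P060.Main

open Finset Classical

namespace Vale.Agent.P060

variable {V : Type} [Fintype V] {G : SimpleGraph V}

noncomputable def cod (G : SimpleGraph V) (a b : V) : ℕ :=
  (univ.filter fun w => ¬ G.Adj a w ∧ ¬ G.Adj b w).card

lemma cod_comm (a b : V) : cod G a b = cod G b a := by
  unfold cod
  simp only [and_comm]

def ok (G : SimpleGraph V) (l : ℕ) (σ π : V → V) (y : V) : Prop :=
  σ y = y ∨ cod G (π y) (π (σ y)) ≤ l

def bad2 (G : SimpleGraph V) (l : ℕ) (σ π : V → V) (x y : V) : Prop :=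
  (y = σ x ∧ y ≠ x ∧ (¬ G.Adj (π x) (π y) ∨ l < cod G (π x) (π y))) ∨
    (y ≠ x ∧ y ≠ σ x ∧ ok G l σ π x ∧ ok G l σ π y ∧ ¬ G.Adj (π x) (π y) ∧
      ¬ G.Adj (π x) (π (σ y)) ∧ ¬ G.Adj (π (σ x)) (π y) ∧ ¬ G.Adj (π (σ x)) (π (σ y)))

lemma bad2_symm {l : ℕ} {σ π : V → V} (hσ : Function.Involutive σ) {x y : V}
    (h : bad2 G l σ π x y) : bad2 G l σ π y x := by
  rcases h with ⟨h1, h2, h3⟩ | ⟨h1, h2, o1, o2, h3, h4, h5, h6⟩
  · exact Or.inl ⟨by rw [h1, hσ], h2.symm, h3.imp (fun h3 h => h3 h.symm) (by rw [cod_comm]; exact id)⟩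
  · exact Or.inr ⟨h1.symm, fun h => h2 (by rw [h, hσ]), o2, o1, fun h => h3 h.symm,
      fun h => h5 h.symm, fun h => h4 h.symm, fun h => h6 h.symm⟩

def Exc (G : SimpleGraph V) (l : ℕ) (σ π : V → V) (a w : V) : Prop :=
  ¬ G.Adj a w ∨ l < cod G a w ∨
    ∃ y, ok G l σ π y ∧ ¬ G.Adj a (π y) ∧ ¬ G.Adj w (π y) ∧ ¬ G.Adj w (π (σ y))

lemma exc_card {l : ℕ} (hE : ∀ v, (univ.filter fun w => ¬ G.Adj v w).card ≤ l * l) {σ : V → V}
    (hU : (univ.filter fun v => σ v = v).card ≤ l) (π : Equiv.Perm V) (a : V) :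
    (univ.filter fun w => Exc G l σ π a w).card ≤ l * l + 3 * (l * l * l) := by
  have i1 : (univ.filter fun w => l < cod G a w).card ≤ l * l * l := by
    have := card_mul_le_card_mul (s := univ.filter fun w => l < cod G a w)
      (t := univ.filter fun w => ¬ G.Adj a w) (fun w y => ¬ G.Adj w y) (m := l + 1) (n := l * l)
      (fun w hw => by
        refine le_trans (mem_filter.1 hw).2 (card_le_card fun y hy => ?_)
        simpa [bipartiteAbove] using hy)
      (fun y _ => le_trans (card_le_card fun w hw => by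
        have := (mem_filter.1 hw).2
        exact mem_filter.2 ⟨mem_univ _, fun h => this h.symm⟩) (hE y))
    have h2 := Nat.mul_le_mul_right (l * l) (hE a)
    refine Nat.le_of_mul_le_mul_right (c := l + 1) ((this.trans h2).trans ?_) (Nat.succ_pos l)
    nlinarith
  have i2 := (card_biUnion_le_card_mul (univ.filter fun v => σ v = v)
    (fun y => univ.filter fun w => ¬ G.Adj (π y) w) (l * l) fun y _ => hE _).trans
      (Nat.mul_le_mul_right _ hU)
  have i4 : (univ.filter fun y => ¬ G.Adj a (π y) ∧ cod G (π y) (π (σ y)) ≤ l).card ≤ l * l :=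
    pre_card π π.injective (hE a) fun z hz => mem_filter.2 ⟨mem_univ _, (mem_filter.1 hz).2.1⟩
  have i3 := (card_biUnion_le_card_mul
    (univ.filter fun y => ¬ G.Adj a (π y) ∧ cod G (π y) (π (σ y)) ≤ l)
    (fun y => univ.filter fun w => ¬ G.Adj (π y) w ∧ ¬ G.Adj (π (σ y)) w) l
    fun y hy => (mem_filter.1 hy).2.2).trans (Nat.mul_le_mul_right _ i4)
  have i0 := hE a
  refine le_trans (card_le_card fun w hw => ?_) ((card_union_le _ _).trans
    (Nat.add_le_add i0 ((card_union_le _ _).trans ((Nat.add_le_add i1 ((card_union_le _ _).trans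
      (Nat.add_le_add i2 i3))).trans (le_of_eq (by ring))))))
  rcases (mem_filter.1 hw).2 with h | h | ⟨y, h | h, h1, h2, h3⟩
  · exact mem_union_left _ (mem_filter.2 ⟨mem_univ _, h⟩)
  · exact mem_union_right _ (mem_union_left _ (mem_filter.2 ⟨mem_univ _, h⟩))
  · exact mem_union_right _ (mem_union_right _ (mem_union_left _ (mem_biUnion.2
      ⟨y, mem_filter.2 ⟨mem_univ _, h⟩, mem_filter.2 ⟨mem_univ _, fun k => h2 k.symm⟩⟩)))
  · exact mem_union_right _ (mem_union_right _ (mem_union_right _ (mem_biUnion.2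
      ⟨y, mem_filter.2 ⟨mem_univ _, h1, h⟩,
        mem_filter.2 ⟨mem_univ _, fun k => h2 k.symm, fun k => h3 k.symm⟩⟩)))

lemma pick2 {l : ℕ} (hE : ∀ v, (univ.filter fun w => ¬ G.Adj v w).card ≤ l * l) {σ : V → V}
    (hσ : Function.Involutive σ) (hU : (univ.filter fun v => σ v = v).card ≤ l)
    (hc : 4 * (l * l) + 6 * (l * l * l) < (univ.filter fun v => σ v ≠ v).card)
    (π : Equiv.Perm V) (x : V) : ∃ z, σ z ≠ z ∧ ¬ Exc G l σ π (π x) (π z) ∧
      ¬ Exc G l σ π (π (σ x)) (π (σ z)) ∧ G.Adj (π x) (π (σ z)) := by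
  by_contra h
  have i1 : (univ.filter fun z => Exc G l σ π (π x) (π z)).card ≤ _ :=
    pre_card π π.injective (exc_card hE hU π (π x)) fun z hz => by simpa using hz
  have i2 : (univ.filter fun z => Exc G l σ π (π (σ x)) (π (σ z))).card ≤ _ :=
    pre_card (fun z => π (σ z)) (π.injective.comp hσ.injective) (exc_card hE hU π (π (σ x)))
      fun z hz => by simpa using hz
  have i3 : (univ.filter fun z => ¬ G.Adj (π x) (π (σ z))).card ≤ l * l :=
    pre_card (fun z => π (σ z)) (π.injective.comp hσ.injective) (hE (π x))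
      fun z hz => by simpa using hz
  have i4 : (univ.filter fun v => σ v ≠ v) ⊆
      (univ.filter fun z => Exc G l σ π (π x) (π z)) ∪
      (univ.filter fun z => Exc G l σ π (π (σ x)) (π (σ z))) ∪
      (univ.filter fun z => ¬ G.Adj (π x) (π (σ z))) := fun z hz => by
    simp only [mem_union, mem_filter, mem_univ, true_and] at hz ⊢
    by_contra h'
    exact h ⟨z, hz, fun k => h' (Or.inl (Or.inl k)), fun k => h' (Or.inl (Or.inr k)),
      by_contra fun k => h' (Or.inr k)⟩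
  have i5 := (card_le_card i4).trans
    ((card_union_le _ _).trans (Nat.add_le_add_right (card_union_le _ _) _))
  omega

lemma switch2 {l : ℕ} {σ : V → V} (hσ : Function.Involutive σ) (π : Equiv.Perm V) {x z : V}
    (hx : σ x ≠ x) (hz : σ z ≠ z) (h1 : ¬ Exc G l σ π (π x) (π z))
    (h2 : ¬ Exc G l σ π (π (σ x)) (π (σ z))) (h3 : G.Adj (π x) (π (σ z))) (a b : V)
    (h : bad2 G l σ (π * Equiv.swap (σ x) z : Equiv.Perm V) a b) : bad2 G l σ π a b ∧ a ≠ x := by
  have a1 : G.Adj (π x) (π z) := by_contra fun k => h1 (Or.inl k)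
  have a2 : G.Adj (π (σ x)) (π (σ z)) := by_contra fun k => h2 (Or.inl k)
  have c1 : ¬ l < cod G (π x) (π z) := fun k => h1 (Or.inr (Or.inl k))
  have c2 : ¬ l < cod G (π (σ x)) (π (σ z)) := fun k => h2 (Or.inr (Or.inl k))
  have n1 : x ≠ z := fun h => a1.ne (by rw [h])
  have n2 : σ z ≠ σ x := fun h => a2.ne (by rw [h])
  obtain ⟨ρ, hρ⟩ : ∃ ρ : V → V, ρ = (π * Equiv.swap (σ x) z : Equiv.Perm V) := ⟨_, rfl⟩
  have p1 : ρ x = π x := by
    rw [hρ, Equiv.Perm.mul_apply, Equiv.swap_apply_of_ne_of_ne hx.symm n1]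
  have p2 : ρ (σ x) = π z := by rw [hρ, Equiv.Perm.mul_apply, Equiv.swap_apply_left]
  have p3 : ρ z = π (σ x) := by rw [hρ, Equiv.Perm.mul_apply, Equiv.swap_apply_right]
  have p4 : ρ (σ z) = π (σ z) := by
    rw [hρ, Equiv.Perm.mul_apply, Equiv.swap_apply_of_ne_of_ne n2 hz]
  have q : ∀ c, c ≠ x → c ≠ σ x → c ≠ z → c ≠ σ z → ρ c = π c ∧ ρ (σ c) = π (σ c) :=
    fun c d1 d2 d3 d4 => by
      rw [hρ, Equiv.Perm.mul_apply, Equiv.Perm.mul_apply, Equiv.swap_apply_of_ne_of_ne d2 d3,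
        Equiv.swap_apply_of_ne_of_ne (fun h => d1 (hσ.injective h))
          (fun h => d4 (by rw [← h, hσ]))]
      exact ⟨rfl, rfl⟩
  rw [← hρ] at h
  have K1 : ∀ b, b ≠ x → b ≠ σ x → ok G l σ ρ b → ¬ G.Adj (π x) (ρ b) → ¬ G.Adj (π x) (ρ (σ b)) →
      ¬ G.Adj (π z) (ρ b) → ¬ G.Adj (π z) (ρ (σ b)) → False := by
    intro b d1 d2 o g1 g2 g3 g4
    by_cases d3 : b = z
    · exact g2 (by rw [d3, p4]; exact h3)
    by_cases d4 : b = σ z
    · exact g1 (by rw [d4, p4]; exact h3)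
    obtain ⟨u1, u2⟩ := q b d1 d2 d3 d4
    unfold ok at o
    rw [u1] at g1 g3 o
    rw [u2] at g4 o
    exact h1 (Or.inr (Or.inr ⟨b, o, g1, g3, g4⟩))
  have K2 : ∀ b, b ≠ z → b ≠ σ z → ok G l σ ρ b → ¬ G.Adj (π (σ x)) (ρ b) →
      ¬ G.Adj (π (σ z)) (ρ b) → ¬ G.Adj (π (σ z)) (ρ (σ b)) → False := by
    intro b d3 d4 o g1 g3 g4
    by_cases d1 : b = x
    · exact g3 (by rw [d1, p1]; exact h3.symm)
    by_cases d2 : b = σ x
    · exact g4 (by rw [d2, hσ, p1]; exact h3.symm)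
    obtain ⟨u1, u2⟩ := q b d1 d2 d3 d4
    unfold ok at o
    rw [u1] at g1 g3 o
    rw [u2] at g4 o
    exact h2 (Or.inr (Or.inr ⟨b, o, g1, g3, g4⟩))
  have key : ∀ a b, bad2 G l σ ρ a b → a ≠ x ∧ a ≠ σ x ∧ a ≠ z ∧ a ≠ σ z := by
    intro a b h
    refine ⟨?_, ?_, ?_, ?_⟩ <;> intro e <;> rw [e] at h <;>
      rcases h with ⟨e', -, h⟩ | ⟨d1, d2, -, o, g1, g2, g3, g4⟩
    · rw [e', p1, p2] at h; exact h.elim (fun k => k a1) c1
    · rw [p1] at g1 g2; rw [p2] at g3 g4; exact K1 b d1 d2 o g1 g2 g3 g4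
    · rw [e', hσ, p1, p2, cod_comm] at h; exact h.elim (fun k => k a1.symm) c1
    · rw [p2] at g1 g2; rw [hσ] at d2 g3 g4; rw [p1] at g3 g4; exact K1 b d2 d1 o g3 g4 g1 g2
    · rw [e', p3, p4] at h; exact h.elim (fun k => k a2) c2
    · rw [p3] at g1; rw [p4] at g3 g4; exact K2 b d1 d2 o g1 g3 g4
    · rw [e', hσ, p3, p4, cod_comm] at h; exact h.elim (fun k => k a2.symm) c2
    · rw [p4] at g1 g2; rw [hσ] at d2 g3; rw [p3] at g3; exact K2 b d2 d1 o g3 g1 g2
  obtain ⟨k1, k2, k3, k4⟩ := key a b h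
  obtain ⟨k5, k6, k7, k8⟩ := key b a (bad2_symm hσ h)
  obtain ⟨u1, u2⟩ := q a k1 k2 k3 k4
  obtain ⟨u3, u4⟩ := q b k5 k6 k7 k8
  refine ⟨?_, k1⟩
  unfold bad2 ok at h ⊢
  rwa [u1, u2, u3, u4] at h

lemma good2 {l : ℕ} (hE : ∀ v, (univ.filter fun w => ¬ G.Adj v w).card ≤ l * l) {σ : V → V}
    (hσ : Function.Involutive σ) (hl : (univ.filter fun v => σ v = v).card ≤ l)
    (hc : 4 * (l * l) + 6 * (l * l * l) < (univ.filter fun v => σ v ≠ v).card)
    (hU : ∀ u v, σ u = u → σ v = v → u ≠ v → G.Adj u v) :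
    ∃ π : Equiv.Perm V, ∀ a b, ¬ bad G σ π a b := by
  obtain ⟨π, h1, h2⟩ := exists_min_image (univ.filter fun π : Equiv.Perm V => ∀ u, σ u = u → π u = u)
    (fun π => (univ.filter fun p : V × V => bad2 G l σ π p.1 p.2).card) ⟨1, by simp⟩
  have h1' := (mem_filter.1 h1).2
  have key : ∀ x y, bad2 G l σ π x y → σ x = x := by
    intro x y h
    by_contra hx
    obtain ⟨z, hz, e1, e2, e3⟩ := pick2 hE hσ hl hc π x
    have k := switch2 hσ π hx hz e1 e2 e3
    refine absurd (h2 (π * Equiv.swap (σ x) z) (mem_filter.2 ⟨mem_univ _, fun u hu => ?_⟩))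
      (not_le.2 (card_lt_card ⟨fun p hp => ?_, fun hs => ?_⟩))
    · rw [Equiv.Perm.mul_apply, Equiv.swap_apply_of_ne_of_ne, h1' u hu]
      · rintro rfl
        exact hx (by rw [hσ] at hu; exact hu.symm)
      · rintro rfl
        exact hz hu
    · exact mem_filter.2 ⟨mem_univ _, (k _ _ (mem_filter.1 hp).2).1⟩
    · exact (k _ _ (mem_filter.1 (hs (mem_filter.2 ⟨mem_univ (x, y), h⟩))).2).2 rfl
  have hok : ∀ y, ok G l σ π y := fun y => by
    by_contra k
    exact k (Or.inl (key y (σ y) (Or.inl ⟨rfl, fun e => k (Or.inl e),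
      Or.inr (not_le.1 fun e => k (Or.inr e))⟩)))
  refine ⟨π, fun a b h0 => ?_⟩
  have h : bad2 G l σ π a b := h0.imp (fun k => ⟨k.1, k.2.1, Or.inl k.2.2⟩)
    fun k => ⟨k.1, k.2.1, hok a, hok b, k.2.2⟩
  have ha := key a b h
  have hb := key b a (bad2_symm hσ h)
  rcases h0 with ⟨k1, k2, -⟩ | ⟨k1, -, k2, -⟩
  · exact k2 (k1.trans ha)
  · rw [h1' a ha, h1' b hb] at k2
    exact k2 (hU a b ha hb k1.symm)

theorem main2 (l : ℕ) (hD : ∀ v, (Gᶜ.neighborSet v).ncard < l ^ 2) (M : Gᶜ.Subgraph)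
    (hM : M.IsMatching) (hl : Fintype.card V ≤ M.verts.ncard + l)
    (hc : 10 * l ^ 3 < M.verts.ncard) : ∃ t, G.Colorable t ∧ HasMinor G t := by
  have hE : ∀ v, (univ.filter fun w => ¬ G.Adj v w).card ≤ l * l := fun v => by
    rw [← Set.ncard_coe_finset, ← sq]
    refine le_trans (Set.ncard_le_ncard (t := insert v (Gᶜ.neighborSet v)) fun w hw => ?_)
      ((Set.ncard_insert_le _ _).trans (hD v))
    by_cases h : w = v
    · exact Or.inl h
    · exact Or.inr ⟨fun k => h k.symm, by simpa using hw⟩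
  let τ : V → V := fun v => if h : v ∈ M.verts then (hM h).exists.choose else v
  have t1 : ∀ v ∈ M.verts, M.Adj v (τ v) := fun v h => by
    simp only [τ, dif_pos h]
    exact (hM h).exists.choose_spec
  have t2 : ∀ v ∉ M.verts, τ v = v := fun v h => dif_neg h
  obtain ⟨σ, s1, s2, s3, s4⟩ := maxi (G := G) (c := M.verts.ncard - 1) (τ := τ)
    (fun v => by
      by_cases h : v ∈ M.verts
      · exact (hM (t1 v h).snd_mem).unique (t1 _ (t1 v h).snd_mem) (t1 v h).symm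
      · rw [t2 v h, t2 v h])
    (fun v => by
      by_cases h : v ∈ M.verts
      · exact (t1 v h).adj_sub.2
      · rw [t2 v h]; exact G.irrefl)
    (by
      rw [← Set.ncard_coe_finset]
      refine lt_of_lt_of_le (Nat.sub_lt (Nat.zero_lt_of_lt hc) one_pos)
        (Set.ncard_le_ncard fun v hv => ?_)
      simpa using (t1 v hv).adj_sub.1.symm)
  have e := card_filter_add_card_filter_not (s := (univ : Finset V)) fun v => σ v = v
  rw [card_univ] at e
  have e2 : l * l ≤ l * l * l := by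
    rcases Nat.eq_zero_or_pos l with h | h
    · simp [h]
    · exact Nat.le_mul_of_pos_right _ h
  have e3 : l ^ 3 = l * l * l := by ring
  have s5 : M.verts.ncard - 1 < (univ.filter fun v => ¬ σ v = v).card := s3
  obtain ⟨π, hπ⟩ := good2 hE s1 (by omega) (by
    show _ < (univ.filter fun v => ¬ σ v = v).card
    omega) s4
  exact final s1 s2 π hπ

end Vale.Agent.P060
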